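import Vale.Agent.P290.H686.Int

/-! P290Z, block KT: the integral of a top form along an injective local diffeomorphism with
conull image. -/

open scoped Manifold ContDiff Topology
open MeasureTheory Set Filter
open Vale.Agent.P267.FL Vale.Agent.P290.H686

noncomputable section

namespace Vale.Agent.P290Z.KT.It

variable {X : Type} [TopologicalSpace X] [ChartedSpace C2 X] [IsManifold 𝓘(ℂ, C2) ω X]
  {μ : C2 → X} {D : C2 → C2 →L[ℝ] C2} {O : Set C2} {b : X → ℂ}

/-- the derivative in another chart -/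
theorem chart_der {z : C2} (hc : ContinuousAt μ z)
    (hD : HasFDerivAt (fun w => chartAt C2 (μ z) (μ w)) (D z) z) (hp : 0 < (D z).det) {e : Ch X}
    (he : e ∈ atlas C2 X) (hz : μ z ∈ e.source) :
    ∃ L : C2 →L[ℝ] C2, HasFDerivAt (fun w => e (μ w)) L z ∧
      |L.det| • loc2 1 e b (e (μ z)) = ((D z).det : ℂ) * b (μ z) := by
  have hc' := chart_mem_atlas C2 (μ z)
  have hx := mem_chart_source C2 (μ z)
  have h1 := ((trans_contDiffAt hc' he hx hz (n := 1)).differentiableAt one_ne_zero).hasFDerivAt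
  have h2 := Dch_comp hc' he hx hz
  rw [Dch_chartAt] at h2
  refine ⟨_, (h1.comp z hD).congr_of_eventuallyEq ?_, ?_⟩
  · filter_upwards [hc.eventually ((chartAt C2 (μ z)).open_source.mem_nhds hx)] with w hw
    simp only [Function.comp]
    rw [(chartAt C2 (μ z)).left_inv hw]
  · have h3 := congrArg ContinuousLinearMap.det h2
    have h4 : (ContinuousLinearMap.id ℝ C2).det = 1 := LinearMap.det_id
    rw [det_comp', h4] at h3
    have h5 := Dch_det_pos he hz
    have h6 := (pos_iff_pos_of_mul_pos (h3 ▸ one_pos)).1 h5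
    rw [det_comp', abs_of_pos (mul_pos h6 hp), loc2_eq he hz, Complex.real_smul]
    have h7 := congrArg (fun t : ℝ => (t : ℂ)) h3
    push_cast at h7 ⊢
    linear_combination (-((D z).det : ℂ) * b (μ z)) * h7

theorem term (hO : IsOpen O) (hc : ∀ z ∈ O, ContinuousAt μ z)
    (hD : ∀ z ∈ O, HasFDerivAt (fun w => chartAt C2 (μ z) (μ w)) (D z) z)
    (hp : ∀ z ∈ O, 0 < (D z).det) (hi : InjOn μ O) {e : Ch X} (he : e ∈ atlas C2 X)
    (hn : volume {w | w ∈ e.target ∧ e.symm w ∉ μ '' O} = 0) (hb : Reg2 0 1 b) {r : X → ℝ}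
    (hr : Continuous r) (hrc : HasCompactSupport r) (hrs : tsupport r ⊆ e.source) :
    IntegrableOn (fun z => r (μ z) • (((D z).det : ℂ) * b (μ z))) O ∧
      ∫ w in e.target, r (e.symm w) • loc2 1 e b w =
        ∫ z in O, r (μ z) • (((D z).det : ℂ) * b (μ z)) := by
  obtain ⟨S, hS⟩ : ∃ S, S = O ∩ μ ⁻¹' e.source := ⟨_, rfl⟩
  have hSo : IsOpen S := hS ▸
    (continuousOn_of_forall_continuousAt hc).isOpen_inter_preimage hO e.open_source
  have hm : ∀ z ∈ S, z ∈ O ∧ μ z ∈ e.source := fun z hz => by rw [hS] at hz; exact hz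
  have h0 : ∀ z ∈ O \ S, r (μ z) • (((D z).det : ℂ) * b (μ z)) = 0 := fun z hz => by
    rw [image_eq_zero_of_notMem_tsupport fun h => hz.2 (hS ▸ ⟨hz.1, hrs h⟩), zero_smul]
  choose! L hL hL' using fun z (hz : z ∈ S) =>
    chart_der (b := b) (hc z (hm z hz).1) (hD z (hm z hz).1) (hp z (hm z hz).1) he (hm z hz).2
  have hd : ∀ z ∈ S, HasFDerivWithinAt (fun w => e (μ w)) (L z) S z := fun z hz =>
    (hL z hz).hasFDerivWithinAt
  have hinj : InjOn (fun w => e (μ w)) S := fun z hz w hw h =>
    hi (hm z hz).1 (hm w hw).1 (e.injOn (hm z hz).2 (hm w hw).2 h)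
  have hsub : (fun w => e (μ w)) '' S ⊆ e.target := by
    rintro _ ⟨z, hz, rfl⟩
    exact e.map_source (hm z hz).2
  have hae : e.target =ᵐ[volume] (fun w => e (μ w)) '' S := by
    refine ae_eq_set.2 ⟨measure_mono_null (fun w hw => ?_) hn, ?_⟩
    · refine ⟨hw.1, ?_⟩
      rintro ⟨z, hz, h⟩
      refine hw.2 ⟨z, hS ▸ ⟨hz, ?_⟩, ?_⟩
      · rw [mem_preimage, h]
        exact e.map_target hw.1
      · beta_reduce
        rw [h, e.right_inv hw.1]
    · rw [sdiff_eq_empty.2 hsub, measure_empty]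
  have hpt : EqOn (fun z => |(L z).det| • (r (e.symm (e (μ z))) • loc2 1 e b (e (μ z))))
      (fun z => r (μ z) • (((D z).det : ℂ) * b (μ z))) S := fun z hz => by
    beta_reduce
    rw [e.left_inv (hm z hz).2, smul_comm, hL' z hz]
  have hK : IsCompact (e '' tsupport r) := hrc.image_of_continuousOn (e.continuousOn.mono hrs)
  have hKt : e '' tsupport r ⊆ e.target := by
    rintro _ ⟨x, hx, rfl⟩
    exact e.map_source (hrs hx)
  have hI : IntegrableOn (fun w => r (e.symm w) • loc2 1 e b w) e.target := by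
    refine (ContinuousOn.integrableOn_compact hK (((hr.comp_continuousOn e.continuousOn_symm).smul
      (hb e he).continuousOn).mono hKt)).of_forall_sdiff_eq_zero e.open_target.measurableSet
      fun w hw => ?_
    change r (e.symm w) • loc2 1 e b w = 0
    rw [image_eq_zero_of_notMem_tsupport fun h => hw.2 ⟨_, h, e.right_inv hw.1⟩, zero_smul]
  have hSO : S ⊆ O := fun z hz => (hm z hz).1
  refine ⟨?_, ?_⟩
  · have h1 := (integrableOn_image_iff_integrableOn_abs_det_fderiv_smul volume hSo.measurableSet hd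
      hinj _).1 (hI.mono_set hsub)
    exact (h1.congr_fun hpt hSo.measurableSet).of_forall_sdiff_eq_zero hO.measurableSet h0
  · rw [setIntegral_congr_set hae,
      integral_image_eq_integral_abs_det_fderiv_smul volume hSo.measurableSet hd hinj,
      setIntegral_congr_fun hSo.measurableSet hpt,
      setIntegral_eq_of_subset_of_forall_sdiff_eq_zero hO.measurableSet hSO h0]

theorem core [T2Space X] [CompactSpace X] (hO : IsOpen O) (hc : ∀ z ∈ O, ContinuousAt μ z)
    (hD : ∀ z ∈ O, HasFDerivAt (fun w => chartAt C2 (μ z) (μ w)) (D z) z)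
    (hp : ∀ z ∈ O, 0 < (D z).det) (hi : InjOn μ O)
    (hn : ∀ e ∈ atlas C2 X, volume {w | w ∈ e.target ∧ e.symm w ∉ μ '' O} = 0)
    (hb : Reg2 0 1 b) : intX b = ∫ z in O, 4 * (((D z).det : ℂ) * b (μ z)) := by
  have cX : HasCompactSupport b := hasCompactSupport_of_compactSpace _
  obtain ⟨N, e, r, he, hr, hrc, hrs, hsum⟩ := exists_finite_pou (isCompact_univ (X := X))
  have h1 := fun i => term hO hc hD hp hi (he i) (hn _ (he i)) hb (hr i) (hrc i) (hrs i)
  rw [intX_eq_intV (integrableX_of_reg hb cX) cX, intV_eq_sum (integrableX_of_reg hb cX) e he r hr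
    (fun i => (isCompact_univ.exists_bound_of_continuousOn (hr i).continuousOn).imp
      fun C hC x => hC x (mem_univ x)) (fun i => (subset_tsupport _).trans (hrs i))
    (fun x _ => hsum x (mem_univ x)), Finset.sum_congr rfl fun i _ => (h1 i).2,
    ← integral_finsetSum _ fun i _ => (h1 i).1, integral_const_mul, Complex.real_smul]
  congr 2
  funext z
  rw [← Finset.sum_smul, hsum _ (mem_univ _), one_smul]

end Vale.Agent.P290Z.KT.It
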